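import Vale.Agent.P290.MathlibUsed

open scoped Manifold ContDiff Topology
open Set

namespace Vale.Agent.P290.All

/-- the complex vector space of dimension two -/
abbrev C2 : Type := ℂ × ℂ

section
variable {X Y C : Type} [TopologicalSpace X] [ChartedSpace C2 X] [TopologicalSpace Y]
  [ChartedSpace C2 Y] [TopologicalSpace C] [ChartedSpace ℂ C]

/-- `f` is holomorphic at `x` -/
def Hol (f : X → Y) (x : X) : Prop :=
  ContinuousAt f x ∧ DifferentiableAt ℂ (fun z => chartAt C2 (f x) (f ((chartAt C2 x).symm z)))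
    (chartAt C2 x x)

/-- `π` is holomorphic at `x` -/
def HolC (π : X → C) (x : X) : Prop :=
  ContinuousAt π x ∧ DifferentiableAt ℂ (fun z => chartAt ℂ (π x) (π ((chartAt C2 x).symm z)))
    (chartAt C2 x x)

/-- `f` is holomorphic at `z` -/
def HolV {m : ℕ} (f : (Fin m → ℂ) → X) (z : Fin m → ℂ) : Prop :=
  ContinuousAt f z ∧ DifferentiableAt ℂ (fun w => chartAt C2 (f z) (f w)) z

/-- both partial derivatives of `π` vanish at `x` (in the preferred charts): `x` is a critical point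
of `π` -/
def Critical (π : X → C) (x : X) : Prop :=
  ∀ e t y, e = chartAt C2 x → t = chartAt ℂ (π x) → y = e x →
    deriv (fun s => t (π (e.symm (s, y.2)))) y.1 = 0 ∧
      deriv (fun s => t (π (e.symm (y.1, s)))) y.2 = 0

/-- `u` is the derivative of `S` at `p` in the preferred chart -/
def HasD (S : C → ℂ) (p : C) (u : ℂ) : Prop :=
  HasDerivAt (fun s => S ((chartAt ℂ p).symm s)) u (chartAt ℂ p p)

end

/-- The convex approximation property. -/
def IsOka (X : Type) [TopologicalSpace X] [ChartedSpace C2 X] : Prop :=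
  ∀ (m : ℕ) (K U : Set (Fin m → ℂ)), 1 ≤ m → IsCompact K → Convex ℝ K → K.Nonempty → IsOpen U →
    K ⊆ U →
    ∀ f : (Fin m → ℂ) → X, (∀ z ∈ U, HolV f z) →
    ∀ d : X → X → ℝ, Continuous (fun p : X × X => d p.1 p.2) → (∀ x, d x x = 0) →
    ∀ ε > 0, ∃ F : (Fin m → ℂ) → X, (∀ z, HolV F z) ∧ ∀ z ∈ K, d (F z) (f z) < ε

/-- a complex K3 surface; `vol e` is the coefficient of the holomorphic 2-form in the chart `e` -/
structure K3 where
  X : Type
  [top : TopologicalSpace X]
  [charts : ChartedSpace C2 X]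
  [manifold : IsManifold 𝓘(ℂ, C2) ω X]
  [t2 : T2Space X]
  [compact : CompactSpace X]
  [sc : SimplyConnectedSpace X]
  vol : OpenPartialHomeomorph X C2 → C2 → ℂ
  holo : ∀ e ∈ atlas C2 X, DifferentiableOn ℂ (vol e) e.target ∧ ∀ y ∈ e.target, vol e y ≠ 0 ∧
    ∀ t ∈ atlas C2 X, e.symm y ∈ t.source →
      vol e y = vol t (t (e.symm y)) * (fderiv ℂ (fun z => t (e.symm z)) y).det

attribute [instance] K3.top K3.charts

/-- a Riemann surface -/
structure RS where
  C : Type
  [top : TopologicalSpace C]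
  [charts : ChartedSpace ℂ C]
  [manifold : IsManifold 𝓘(ℂ) ω C]
  [t2 : T2Space C]

attribute [instance] RS.top RS.charts

/-- `c` is an integral curve, in complex time, of the Hamiltonian vector field of `H` -/
def IsHamCurve (X : K3) (H : X.X → ℂ) (c : ℂ → X.X) : Prop :=
  ∀ t, ContinuousAt c t ∧ ∀ e ∈ atlas C2 X.X, c t ∈ e.source → ∀ y, y = e (c t) →
    ∃ v : C2, HasDerivAt (fun s => e (c s)) v t ∧
      X.vol e y * v.1 = deriv (fun s => H (e.symm (y.1, s))) y.2 ∧
      X.vol e y * v.2 = - deriv (fun s => H (e.symm (s, y.2))) y.1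

/-- `Y` is a Tate-Shafarevich twist of `X`: over the sets of an open cover of the Riemann surface `C`
the maps `π : X → C` and `ρ : Y → C` are isomorphic, and over the intersections the isomorphisms
differ by the time one map of the Hamiltonian flow of a function pulled back from the base -/
structure Twist (X Y : K3) where
  C : RS
  π : X.X → C.C
  ρ : Y.X → C.C
  A : Type
  O : A → Set C.C
  h : A → X.X → Y.X
  g : A → Y.X → X.X
  S : A → A → C.C → ℂ
  π_hol : ∀ x, HolC π x
  ρ_hol : ∀ y, HolC ρ y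
  isOpen : ∀ a, IsOpen (O a)
  cover : ∀ p, ∃ a, p ∈ O a
  h_hol : ∀ a x, π x ∈ O a → Hol (h a) x ∧ ρ (h a x) = π x ∧ g a (h a x) = x
  g_hol : ∀ a y, ρ y ∈ O a → Hol (g a) y ∧ π (g a y) = ρ y ∧ h a (g a y) = y
  S_coc : ∀ a b c p, p ∈ O a → p ∈ O b → p ∈ O c →
    ∃ u v, HasD (S a b) p u ∧ HasD (S b c) p v ∧ HasD (S a c) p (u + v)
  trans : ∀ a b x, π x ∈ O a → π x ∈ O b →
    ∃ c, IsHamCurve X (fun x => S a b (π x)) c ∧ c 0 = x ∧ h b (c 1) = h a x

/-- `Z` has holomorphic maps to Riemann surfaces without common critical point and with finite joint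
fibres -/
def Fibred (Z : K3) : Prop :=
  ∃ (J : Type) (C : J → RS) (π : ∀ j, Z.X → (C j).C), (∀ j x, HolC (π j) x) ∧
    (∀ x, ∃ j, ¬ Critical (π j) x) ∧ ∀ x, {y | ∀ j, π j y = π j x}.Finite

/-- `f` is a local biholomorphism at `v` -/
def Etale {X : Type} [TopologicalSpace X] [ChartedSpace C2 X] (f : C2 → X) (v : C2) : Prop :=
  ContinuousAt f v ∧ DifferentiableAt ℂ (fun z => chartAt C2 (f v) (f z)) v ∧
    (fderiv ℂ (fun z => chartAt C2 (f v) (f z)) v).det ≠ 0

/-- the vectors `(1, u)` and `(u, 1)`: affine coordinates of the lines in `ℂ²` -/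
def dir (b : Bool) (u : ℂ) : C2 := cond b (1, u) (u, 1)

/-- `a ∈ L / 2`, and `√h dir b u` is not a nonzero element of `L / 2` (`v = (h, u)`) -/
def Dom (L : AddSubgroup C2) (a : C2) (b : Bool) (v : C2) : Prop :=
  a + a ∈ L ∧ ∀ w : ℂ, w ^ 2 = v.1 → (w + w) • dir b v.2 ∈ L → w = 0

/-- `X` is the Kummer surface of the torus `ℂ²/L`, i.e. the minimal resolution of `(ℂ²/L)/±1`:
for `a ∈ L / 2` the local biholomorphism `N a b` maps `(h, u)`, `h ≠ 0`, to the class of
`a + √h dir b u` (for both square roots) and `(0, u)` to the point `[dir b u]` of the exceptional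
curve `ℙ¹` over the class of `a`. -/
structure Kummer (L : AddSubgroup C2) (X : Type) [TopologicalSpace X] [ChartedSpace C2 X] where
  N : C2 → Bool → C2 → X
  etale : ∀ a b v, Dom L a b v → Etale (N a b) v
  cover : ∀ y, ∃ a b v, Dom L a b v ∧ N a b v = y
  rel : ∀ a b v a' b' v', Dom L a b v → Dom L a' b' v' →
    (N a b v = N a' b' v' ↔
      (v.1 ≠ 0 ∧ v'.1 ≠ 0 ∧ ∃ w w' : ℂ, w ^ 2 = v.1 ∧ w' ^ 2 = v'.1 ∧
        a' + w' • dir b' v'.2 - (a + w • dir b v.2) ∈ L) ∨
      (v.1 = 0 ∧ v'.1 = 0 ∧ a' - a ∈ L ∧ ∃ t : ℂ, dir b' v'.2 = t • dir b v.2))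

/-- `X` is the Kummer surface of a complex torus `ℂ²/L`, `L` the lattice with basis `l` -/
def IsKummer (X : Type) [TopologicalSpace X] [ChartedSpace C2 X] : Prop :=
  ∃ l : Fin 4 → C2, LinearIndependent ℝ l ∧ Nonempty (Kummer (AddSubgroup.closure (range l)) X)

end Vale.Agent.P290.All
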