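import Vale.Agent.P290.Defs

open Set
open scoped Manifold ContDiff Topology

namespace Vale.Agent.P290.Kum

/-- `f` is a local biholomorphism at `v` -/
def Etale {X : Type} [TopologicalSpace X] [ChartedSpace C2 X] (f : C2 → X) (v : C2) : Prop :=
  ContinuousAt f v ∧ DifferentiableAt ℂ (fun z => chartAt C2 (f v) (f z)) v ∧
    (fderiv ℂ (fun z => chartAt C2 (f v) (f z)) v).det ≠ 0

/-- the vectors `(1, u)` and `(u, 1)`: affine coordinates of the lines in `ℂ²` -/
def dir (b : Bool) (u : ℂ) : C2 := cond b (1, u) (u, 1)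

/-- the parameters `(h, u)` such that `√h dir b u` is not a nonzero element of `L / 2` -/
def Dom (L : AddSubgroup C2) (b : Bool) (v : C2) : Prop :=
  ∀ w : ℂ, w ^ 2 = v.1 → (2 * w) • dir b v.2 ∈ L → w = 0

/-- `X` is the Kummer surface of the torus `ℂ²/L`, i.e. the minimal resolution of `(ℂ²/L)/±1`:
for `a ∈ L / 2` the local biholomorphism `N a b` maps `(h, u)`, `h ≠ 0`, to the class of
`a + √h dir b u` (for both square roots) and `(0, u)` to the point `[dir b u]` of the exceptional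
curve `ℙ¹` over the class of `a`. -/
structure Kummer (L : AddSubgroup C2) (X : Type) [TopologicalSpace X] [ChartedSpace C2 X] where
  N : C2 → Bool → C2 → X
  etale : ∀ a b v, a + a ∈ L → Dom L b v → Etale (N a b) v
  cover : ∀ y, ∃ a b v, a + a ∈ L ∧ Dom L b v ∧ N a b v = y
  rel : ∀ a b v a' b' v', a + a ∈ L → Dom L b v → a' + a' ∈ L → Dom L b' v' →
    (N a b v = N a' b' v' ↔
      (v.1 ≠ 0 ∧ v'.1 ≠ 0 ∧ ∃ w w' : ℂ, w ^ 2 = v.1 ∧ w' ^ 2 = v'.1 ∧
        a' + w' • dir b' v'.2 - (a + w • dir b v.2) ∈ L) ∨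
      (v.1 = 0 ∧ v'.1 = 0 ∧ a' - a ∈ L ∧ ∃ t : ℂ, dir b' v'.2 = t • dir b v.2))

/-- `X` is the Kummer surface of the complex torus `ℂ²/L`, `L` the lattice with basis `l` -/
structure IsKummer (l : Fin 4 → C2) (X : Type) [TopologicalSpace X] [ChartedSpace C2 X] :
    Prop where
  manifold : IsManifold 𝓘(ℂ, C2) ω X
  t2 : T2Space X
  kummer : Nonempty (Kummer (AddSubgroup.closure (range l)) X)

end Vale.Agent.P290.Kum
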